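import Vale.Agent.P073.MM.All

/-!
# P073: smoothing which keeps the sign of every linear functional of the weak derivative
-/

namespace Vale.Agent.P073.R2.H488

open MeasureTheory Set Filter Topology Metric Vale.Agent.P073.St Vale.Agent.P073.AB
open Vale.Agent.P073.MM
open scoped ContDiff ENNReal

/-- the functional `l` is nonnegative on the weak derivative -/
def Pos (U : Set V) (F : V → Mat) (l : (V →L[ℝ] V) →L[ℝ] ℝ) : Prop :=
  ∀ᵐ x ∂(volume : Measure V), x ∈ U → 0 ≤ l (cl (F x))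

theorem stageL (hA1 : SpecMollLp) {p : ℝ} (hp : 1 ≤ p) {U : Set V} (hU : IsOpen U)
    (hUb : Bornology.IsBounded U) {f : V → V} {F : V → Mat} (hf : ContinuousOn f U)
    (hF : St.IsSobolev p U f F) {c : V → ℝ} (hc : ContDiff ℝ ∞ c)
    (hc0 : ∀ x, 0 ≤ c x) (hcs : HasCompactSupport c) (hct : tsupport c ⊆ U) {Q : V → Prop}
    {r : ℝ} (hr : 0 < r) (hQ : ∀ x y, ‖x - y‖ < r → y ∈ tsupport c → Q x) {η ε : ℝ}
    (hη : 0 < η) (hε : 0 < ε) :
    ∃ (T : V → V) (A B : V → V →L[ℝ] V), ContDiff ℝ ∞ T ∧ (∀ x, fderiv ℝ T x = A x + B x) ∧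
      (∀ x, ‖T x - c x • f x‖ ≤ η) ∧
      (∀ x, ‖B x - (fderiv ℝ c x).smulRight (f x)‖ ≤ η) ∧
      ∫⁻ x, ENNReal.ofReal (‖A x - c x • cl (F x)‖ ^ p) ≤ ENNReal.ofReal ε ∧
      (∀ x, ¬ Q x → T x = 0 ∧ A x = 0 ∧ B x = 0 ∧ c x = 0 ∧ fderiv ℝ c x = 0) ∧
      (∀ l, Pos U F l → ∀ x, 0 ≤ l (A x)) ∧ Continuous A := by
  have hv : volume U ≠ ⊤ := hUb.measure_lt_top.ne
  have hoff : ∀ y, y ∉ U → c y = 0 := fun y hy =>
    image_eq_zero_of_notMem_tsupport fun h => hy (hct h)
  -- the three functions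
  set u1 : V → V := fun y => c y • f y with hu1
  set u2 : V → V →L[ℝ] V := fun y => (fderiv ℝ c y).smulRight (f y) with hu2
  set u3 : V → V →L[ℝ] V := fun y => c y • cl (F y) with hu3
  have k1 : Continuous u1 := cont_smul hU hf hc.continuous hct
  have k1s : HasCompactSupport u1 := hcs.smul_right
  have k2on : ContinuousOn u2 U := by
    have h1 : ContinuousOn (fderiv ℝ c) U := (hc.continuous_fderiv (by simp)).continuousOn
    exact ((ContinuousLinearMap.smulRightL ℝ V V).continuous₂.comp_continuousOn (h1.prodMk hf))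
  have k2t : tsupport u2 ⊆ tsupport c := by
    refine Subset.trans ?_ (tsupport_fderiv_subset ℝ (f := c))
    refine closure_mono fun y hy => ?_
    intro h0
    apply hy
    show (fderiv ℝ c y).smulRight (f y) = 0
    rw [h0]
    ext v : 1
    simp
  have k2 : Continuous u2 := k2on.continuous_of_tsupport_subset hU (k2t.trans hct)
  have k2s : HasCompactSupport u2 := hcs.of_isClosed_subset (isClosed_tsupport _) k2t
  obtain ⟨C, hC⟩ := hcs.exists_bound_of_continuous hc.continuous
  have hC0 : 0 ≤ C := (norm_nonneg _).trans (hC 0)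
  have k3on : IntegrableOn u3 U :=
    (PK.IsSob.integrableOn_cl hp hv hF).bdd_smul C hc.continuous.aestronglyMeasurable
      (ae_of_all _ hC)
  have k3 : Integrable u3 := by
    refine (integrableOn_iff_integrable_of_support_subset (s := U) (f := u3) ?_).1 k3on
    intro y hy
    by_contra h
    apply hy
    show c y • cl (F y) = 0
    rw [hoff y h, zero_smul]
  have k3s : HasCompactSupport u3 := hcs.smul_right
  have k3p : ∫⁻ x, ENNReal.ofReal (‖u3 x‖ ^ p) ≠ ⊤ := by
    have hp0 : 0 ≤ p := by linarith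
    have e1 : ∀ x, ENNReal.ofReal (‖u3 x‖ ^ p) ≤
        U.indicator (fun x => ENNReal.ofReal (C ^ p) * ‖cl (F x)‖ₑ ^ p) x := by
      intro x
      by_cases hx : x ∈ U
      · rw [indicator_of_mem hx, hu3]
        dsimp only
        rw [norm_smul, Real.mul_rpow (norm_nonneg _) (norm_nonneg _),
          ENNReal.ofReal_mul (by positivity), ← ofReal_norm_eq_enorm,
          ENNReal.ofReal_rpow_of_nonneg (norm_nonneg _) hp0]
        gcongr
        exact hC x
      · rw [indicator_of_notMem hx, hu3]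
        dsimp only
        rw [hoff x hx, zero_smul, norm_zero, Real.zero_rpow (by linarith), ENNReal.ofReal_zero]
    refine ne_top_of_le_ne_top ?_ (lintegral_mono e1)
    rw [lintegral_indicator hU.measurableSet, lintegral_const_mul' _ _ ENNReal.ofReal_ne_top]
    exact ENNReal.mul_ne_top ENNReal.ofReal_ne_top (PK.IsSob.lintegral_ne_top hp hF)
  obtain ⟨δ1, hδ1, H1⟩ := cv_unif k1 k1s hη
  obtain ⟨δ2, hδ2, H2⟩ := cv_unif k2 k2s hη
  obtain ⟨δ3, hδ3, H3⟩ := hA1 p u3 hp k3.aestronglyMeasurable k3p k3s ε hε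
  set δ : ℝ := min (min δ1 δ2) (min δ3 r) with hδ
  have hδ0 : 0 < δ := lt_min (lt_min hδ1 hδ2) (lt_min hδ3 hr)
  let φ : ContDiffBump (0 : V) := ⟨δ / 2, δ, half_pos hδ0, half_lt_self hδ0⟩
  have hφ : φ.rOut = δ := rfl
  have hw := PK.IsSob.weakDeriv hp hv hF
  refine ⟨cv φ u1, cv φ u3, cv φ u2, cv_smooth φ k1.locallyIntegrable, fun x => ?_,
    H1 φ (hφ.trans_le ((min_le_left _ _).trans (min_le_left _ _))),
    H2 φ (hφ.trans_le ((min_le_left _ _).trans (min_le_right _ _))),
    H3 φ (hφ.trans_le ((min_le_right _ _).trans (min_le_left _ _))), fun x hx => ?_,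
    fun l hl x => ?_, (cv_smooth φ k3.locallyIntegrable).continuous⟩
  · ext v : 1
    rw [cv_weak φ hU hf hw hc hcs hct x v]
    show _ = cv φ u3 x v + cv φ u2 x v
    rw [cv_apply φ k3.locallyIntegrable, cv_apply φ k2.locallyIntegrable]
    rfl
  · have hz : ∀ y, ‖x - y‖ < φ.rOut → y ∉ tsupport c := fun y hy ht =>
      hx (hQ x y (hy.trans_le (hφ.trans_le ((min_le_right _ _).trans (min_le_right _ _)))) ht)
    have hz0 : x ∉ tsupport c := hz x (by simpa using hδ0)
    refine ⟨cv_zero φ fun y hy => ?_, cv_zero φ fun y hy => ?_, cv_zero φ fun y hy => ?_,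
      image_eq_zero_of_notMem_tsupport hz0, ?_⟩
    · show c y • f y = 0
      rw [image_eq_zero_of_notMem_tsupport (hz y hy), zero_smul]
    · show c y • cl (F y) = 0
      rw [image_eq_zero_of_notMem_tsupport (hz y hy), zero_smul]
    · exact image_eq_zero_of_notMem_tsupport fun h => hz y hy (k2t h)
    · exact image_eq_zero_of_notMem_tsupport fun h => hz0 (tsupport_fderiv_subset ℝ h)
  · have e2 : l (cv φ u3 x) = ∫ y, l (φ.normed volume (x - y) • u3 y) := by
      unfold cv
      exact (l.integral_comp_comm (cv_integrable φ k3.locallyIntegrable x)).symm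
    rw [e2]
    refine integral_nonneg_of_ae ?_
    filter_upwards [hl] with y hy
    show 0 ≤ l (φ.normed volume (x - y) • u3 y)
    rw [map_smul, smul_eq_mul]
    refine mul_nonneg (φ.nonneg_normed _) ?_
    by_cases hyU : y ∈ U
    · show 0 ≤ l (c y • cl (F y))
      rw [map_smul, smul_eq_mul]
      exact mul_nonneg (hc0 y) (hy hyU)
    · have h4 : u3 y = 0 := by rw [hu3]; simp only [hoff y hyU, zero_smul]
      rw [h4, map_zero]

/-- **Smoothing which keeps the sign of every functional** -/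
theorem smoothL {p : ℝ} {U : Set V} {f : V → V} {F : V → Mat} {e : V → ℝ} {ε : ℝ}
    (hp : 1 ≤ p) (hU : IsOpen U) (hUb : Bornology.IsBounded U) (hf : ContinuousOn f U)
    (hF : St.IsSobolev p U f F) (he : ContinuousOn e U) (he0 : ∀ x ∈ U, 0 < e x) (hε : 0 < ε) :
    ∃ g : V → V, ContDiffOn ℝ ∞ g U ∧ (∀ x ∈ U, ‖g x - f x‖ ≤ e x) ∧
      ∫⁻ x in U, ENNReal.ofReal (‖fderiv ℝ g x - cl (F x)‖ ^ p) ≤ ENNReal.ofReal ε ∧
      ∀ l, Pos U F l → ∀ x ∈ U, -(e x) * ‖l‖ ≤ l (fderiv ℝ g x) := by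
  have hA1 : SpecMollLp := H307.mollLp
  have hp0 : 0 < p := by linarith
  have hne : Uᶜ.Nonempty := by
    rw [nonempty_compl]
    rintro rfl
    exact NormedSpace.unbounded_univ ℝ V hUb
  have hv : volume U ≠ ⊤ := hUb.measure_lt_top.ne
  obtain ⟨c, c1, c2, c3, c4, c5, c6, c7⟩ := exists_part hU hUb hne
  obtain ⟨κ, hκ, hκε⟩ := exists_kap hp0 hε hv
  choose m m0 mκ me using exists_m hU hUb hne he he0 hκ
  have hst := fun n => stageL hA1 hp hU hUb hf hF (c1 n) (c2 n) (c3 n) (c4 n) (Q := Qn U n)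
    (r := lv (n + 1) - lv (n + 2)) (sub_pos.2 (lv_succ (n + 1)))
    (qn_of hne c5 c6 n) (η := (1 / 2 : ℝ) ^ (n + 1) * (m n / 3))
    (ε := κ * (1 / 2) ^ (n + 1) / (2 ^ (n + 1)) ^ p) (by have := m0 n; positivity) (by positivity)
  choose T A B t1 t2 t3 t4 t5 t6 t7 t8 using hst
  have cd : Continuous fun x : V => infDist x Uᶜ := continuous_infDist_pt _
  have hWo : ∀ N, IsOpen {x : V | lv N < infDist x Uᶜ} := fun N => isOpen_lt continuous_const cd
  have hpos : ∀ x ∈ U, 0 < infDist x Uᶜ := fun x hx =>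
    (hU.isClosed_compl.notMem_iff_infDist_pos hne).1 (by simpa using hx)
  have hex : ∀ x ∈ U, ∃ N, lv N < infDist x Uᶜ := fun x hx => exists_lv (hpos x hx)
  have hlvU : ∀ {N x}, lv N < infDist x Uᶜ → x ∈ U := fun {N x} h =>
    sub_of_pos hne hU ((lv_pos N).trans h)
  -- the sum
  have hg : ∀ N, ∀ x, lv N < infDist x Uᶜ → ∑' n, T n x = ∑ n ∈ Finset.range (N + 2), T n x := by
    intro N x hx
    refine tsum_eq_sum fun n hn => ?_
    exact (t6 n x (not_qn hx (by simpa using hn))).1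
  have hev : ∀ N x, lv N < infDist x Uᶜ →
      (fun y => ∑' n, T n y) =ᶠ[𝓝 x] fun y => ∑ n ∈ Finset.range (N + 2), T n y := by
    intro N x hx
    filter_upwards [(hWo N).mem_nhds hx] with y hy using hg N y hy
  have hsm : ∀ N, ContDiff ℝ ∞ fun y => ∑ n ∈ Finset.range (N + 2), T n y := fun N =>
    ContDiff.sum fun n _ => t1 n
  have hfd : ∀ N x, lv N < infDist x Uᶜ → fderiv ℝ (fun y => ∑' n, T n y) x =
      ∑ n ∈ Finset.range (N + 2), (A n x + B n x) := by
    intro N x hx
    rw [(hev N x hx).fderiv_eq, fderiv_fun_sum fun n _ => ((t1 n).differentiable (by simp)) x]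
    exact Finset.sum_congr rfl fun n _ => t2 n x
  have hc1 : ∀ N x, lv N < infDist x Uᶜ → ∑ n ∈ Finset.range (N + 2), c n x = 1 := by
    intro N x hx
    exact c7 N x hx.le (N + 1) (by omega)
  have hcd : ∀ N x, lv N < infDist x Uᶜ → ∑ n ∈ Finset.range (N + 2), fderiv ℝ (c n) x = 0 := by
    intro N x hx
    rw [← fderiv_fun_sum fun n _ => ((c1 n).differentiable (by simp)) x]
    have h1 : (fun y => ∑ n ∈ Finset.range (N + 2), c n y) =ᶠ[𝓝 x] fun _ => (1 : ℝ) := by
      filter_upwards [(hWo N).mem_nhds hx] with y hy using hc1 N y hy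
    rw [h1.fderiv_eq]
    simp
  -- the estimates
  have b3 : ∀ x ∈ U, ∀ n, ‖T n x - c n x • f x‖ ≤ (1 / 2 : ℝ) ^ (n + 1) * e x := by
    intro x hx n
    have h0 := he0 x hx
    by_cases hq : Qn U n x
    · refine (t3 n x).trans ?_
      have := me n x hq
      have := m0 n
      gcongr
      linarith
    · obtain ⟨e1, -, -, e2, -⟩ := t6 n x hq
      rw [e1, e2, zero_smul, sub_zero, norm_zero]
      positivity
  have b4 : ∀ x ∈ U, ∀ n, ‖B n x - (fderiv ℝ (c n) x).smulRight (f x)‖ ≤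
      (1 / 2 : ℝ) ^ (n + 1) * (min (e x) κ / 3) := by
    intro x hx n
    have h0 : 0 < min (e x) κ := lt_min (he0 x hx) hκ
    by_cases hq : Qn U n x
    · refine (t4 n x).trans ?_
      have h1 : m n ≤ min (e x) κ := le_min (me n x hq) (mκ n)
      have := m0 n
      gcongr
    · obtain ⟨-, -, e1, -, e2⟩ := t6 n x hq
      have e3 : (0 : V →L[ℝ] ℝ).smulRight (f x) = 0 := by ext v : 1; simp
      rw [e1, e2, e3, sub_zero, norm_zero]
      positivity
  have hB : ∀ N x, lv N < infDist x Uᶜ →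
      ‖∑ n ∈ Finset.range (N + 2), B n x‖ ≤ min (e x) κ / 3 := by
    intro N x hx
    have hxU := hlvU hx
    have h0 : 0 < min (e x) κ := lt_min (he0 x hxU) hκ
    have h1 : ∑ n ∈ Finset.range (N + 2), (fderiv ℝ (c n) x).smulRight (f x) = 0 := by
      ext v : 1
      rw [ContinuousLinearMap.sum_apply]
      simp only [ContinuousLinearMap.smulRight_apply]
      rw [← Finset.sum_smul, ← ContinuousLinearMap.sum_apply, hcd N x hx]
      simp
    have h2 : ∑ n ∈ Finset.range (N + 2), B n x =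
        ∑ n ∈ Finset.range (N + 2), (B n x - (fderiv ℝ (c n) x).smulRight (f x)) := by
      rw [Finset.sum_sub_distrib, h1, sub_zero]
    rw [h2]
    exact norm_sum_le_geo _ (by positivity) _ (b4 x hxU)
  refine ⟨fun x => ∑' n, T n x, ?_, ?_, ?_, ?_⟩
  · intro x hx
    obtain ⟨N, hN⟩ := hex x hx
    exact (((hsm N).contDiffAt).congr_of_eventuallyEq (hev N x hN)).contDiffWithinAt
  · intro x hx
    obtain ⟨N, hN⟩ := hex x hx
    have h1 : f x = ∑ n ∈ Finset.range (N + 2), c n x • f x := by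
      rw [← Finset.sum_smul, hc1 N x hN, one_smul]
    show ‖∑' n, T n x - f x‖ ≤ e x
    rw [hg N x hN]
    conv_lhs => rw [h1]
    rw [← Finset.sum_sub_distrib]
    exact norm_sum_le_geo _ (he0 x hx).le _ (b3 x hx)
  · -- the energy
    have hAm : ∀ n, AEMeasurable (fun x => ENNReal.ofReal ((2 ^ (n + 1)) ^ p) *
        ENNReal.ofReal (‖A n x - c n x • cl (F x)‖ ^ p)) (volume.restrict U) := by
      intro n
      have h1 : AEStronglyMeasurable (fun x => A n x - c n x • cl (F x)) (volume.restrict U) :=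
        (t8 n).aestronglyMeasurable.sub
          ((c1 n).continuous.aestronglyMeasurable.smul (PK.IsSob.aesm hF))
      exact (h1.norm.aemeasurable.pow_const p).ennreal_ofReal.const_mul _
    calc ∫⁻ x in U, ENNReal.ofReal (‖fderiv ℝ (fun y => ∑' n, T n y) x - cl (F x)‖ ^ p)
        ≤ ∫⁻ x in U, ENNReal.ofReal (2 ^ p) * (∑' n, ENNReal.ofReal ((2 ^ (n + 1)) ^ p) *
            ENNReal.ofReal (‖A n x - c n x • cl (F x)‖ ^ p) + ENNReal.ofReal (κ ^ p)) := by
          refine setLIntegral_mono' hU.measurableSet fun x hx => ?_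
          obtain ⟨N, hN⟩ := hex x hx
          have h0 : 0 < min (e x) κ := lt_min (he0 x hx) hκ
          refine pt_energy hp0 hκ.le (fun n => A n x - c n x • cl (F x))
            (∑ n ∈ Finset.range (N + 2), B n x) _ (N + 2) ?_ ?_
          · have h1 : cl (F x) = ∑ n ∈ Finset.range (N + 2), c n x • cl (F x) := by
              rw [← Finset.sum_smul, hc1 N x hN, one_smul]
            rw [hfd N x hN]
            conv_lhs => rw [h1]
            rw [Finset.sum_add_distrib, Finset.sum_sub_distrib]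
            abel
          · have h1 := hB N x hN
            have h2 : min (e x) κ ≤ κ := min_le_right _ _
            linarith
      _ = ENNReal.ofReal (2 ^ p) * ((∫⁻ x in U, ∑' n, ENNReal.ofReal ((2 ^ (n + 1)) ^ p) *
            ENNReal.ofReal (‖A n x - c n x • cl (F x)‖ ^ p)) +
            ENNReal.ofReal (κ ^ p) * volume U) := by
          rw [lintegral_const_mul' _ _ ENNReal.ofReal_ne_top,
            lintegral_add_right' _ aemeasurable_const, setLIntegral_const]
      _ ≤ ENNReal.ofReal (2 ^ p) * (ENNReal.ofReal κ + ENNReal.ofReal (κ ^ p) * volume U) := by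
          gcongr
          rw [lintegral_tsum hAm]
          refine le_trans (ENNReal.tsum_le_tsum fun n => ?_) (tsum_geo κ hκ.le)
          rw [lintegral_const_mul' _ _ ENNReal.ofReal_ne_top]
          calc ENNReal.ofReal ((2 ^ (n + 1)) ^ p) *
                ∫⁻ x in U, ENNReal.ofReal (‖A n x - c n x • cl (F x)‖ ^ p)
              ≤ ENNReal.ofReal ((2 ^ (n + 1)) ^ p) *
                ENNReal.ofReal (κ * (1 / 2) ^ (n + 1) / (2 ^ (n + 1)) ^ p) := by
                gcongr
                exact (setLIntegral_le_lintegral _ _).trans (t5 n)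
            _ = ENNReal.ofReal (κ * (1 / 2) ^ (n + 1)) := by
                rw [← ENNReal.ofReal_mul (by positivity)]
                congr 1
                have : ((2 : ℝ) ^ (n + 1)) ^ p ≠ 0 := by positivity
                field_simp
      _ ≤ ENNReal.ofReal ε := hκε
  · intro l hl x hx
    obtain ⟨N, hN⟩ := hex x hx
    have h0 : 0 < min (e x) κ := lt_min (he0 x hx) hκ
    rw [hfd N x hN, Finset.sum_add_distrib, map_add, map_sum]
    have h1 : 0 ≤ ∑ n ∈ Finset.range (N + 2), l (A n x) :=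
      Finset.sum_nonneg fun n _ => t7 n l hl x
    have h2 : |l (∑ n ∈ Finset.range (N + 2), B n x)| ≤
        ‖l‖ * ‖∑ n ∈ Finset.range (N + 2), B n x‖ := l.le_opNorm _
    have h3 := hB N x hN
    have h4 : min (e x) κ ≤ e x := min_le_left _ _
    have h5 : ‖l‖ * ‖∑ n ∈ Finset.range (N + 2), B n x‖ ≤ ‖l‖ * e x :=
      mul_le_mul_of_nonneg_left (by linarith) (norm_nonneg l)
    have h6 := (abs_le.1 h2).1
    linarith

end Vale.Agent.P073.R2.H488
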